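import Vale.Agent.N278X.Main

open scoped ContDiff Manifold
open Vale.Agent.N278X

namespace Vale.Agent.Results.P278.A0Leaves

universe u

/-- **Beauville splitting for the leaves of a foliation.**
Let `X` be a connected complex manifold and let the `F i` be independent holomorphic subbundles of
its tangent bundle such that the sums of all subfamilies are integrable.
(1) If a smooth two-form is positive and closed along the sum of the `F i`, every universal
covering of every relatively compact leaf of this sum is a product of simply connected complex
manifolds, compatibly with the `F i`.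
(2) Through every point there is a leaf, and it has a universal covering. -/
theorem result (E : Type) [NormedAddCommGroup E] [NormedSpace ℂ E] [FiniteDimensional ℂ E]
    (X : Type) [TopologicalSpace X] [T2Space X] [ConnectedSpace X] [ChartedSpace E X]
    [IsManifold 𝓘(ℂ, E) ω X] (k : ℕ) (F : Fin k → Plane E X) (hF : ∀ i, Subbundle (F i))
    (hI : ∀ S : Set (Fin k), Involutive (⨆ i ∈ S, F i)) (hd : ∀ x, iSupIndep fun i => F i x) :
    ((∃ s : TwoForm E X, Tames s (⨆ i, F i)) →
      ∀ (V : Type) [NormedAddCommGroup V] [NormedSpace ℂ V] (L M : Type u) [TopologicalSpace L]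
        [ChartedSpace V L] [TopologicalSpace M] [ChartedSpace V M] (j : L → X) (π : M → L),
        Leaf V (⨆ i, F i) j → IsCompact (closure (Set.range j)) → UnivCover V π →
          Product V F (j ∘ π)) ∧
    ∀ x, ∃ (V : Type) (_ : NormedAddCommGroup V) (_ : NormedSpace ℂ V) (L M : Type)
      (_ : TopologicalSpace L) (_ : ChartedSpace V L) (_ : TopologicalSpace M)
      (_ : ChartedSpace V M) (j : L → X) (π : M → L),
      Leaf V (⨆ i, F i) j ∧ x ∈ Set.range j ∧ UnivCover V π :=
  ⟨fun ⟨_, h⟩ _ _ _ _ _ _ _ _ _ _ _ l K c => leaf_product hF hI hd h l K subset_closure c,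
    exists_leaf_cover hF hI hd⟩

end Vale.Agent.Results.P278.A0Leaves
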