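import Vale.Agent.N278T.Main

open scoped ContDiff Manifold
open Vale.Agent.P278.StmtF Vale.Agent.P278.H837 Vale.Agent.P278B7 Vale.Agent.N278T

namespace Vale.Agent.Results.P278.A0Tamed

universe u

/-- **Splitting for tamed and for cocompact manifolds.**
Let `X` be a connected second countable complex manifold whose tangent bundle is the direct sum of
holomorphic subbundles `F i` such that the sums of all subfamilies are integrable. Suppose that for
each `i` there is a `C^1` two-form `s` taming the complex structure, with
`ds (u, J u, v) = ds (v, J v, u) = 0` for `u` in `F i` and `v` in the sum `G` of the other summands,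
such that the biholomorphisms preserving `s`, `F i` and `G` act cocompactly. Then every universal
covering of `X` is a product of simply connected complex manifolds, compatibly with the `F i`. -/
theorem result (E : Type) [NormedAddCommGroup E] [NormedSpace ℂ E] [FiniteDimensional ℂ E]
    (X : Type) [TopologicalSpace X] [T2Space X] [ConnectedSpace X] [SecondCountableTopology X]
    [ChartedSpace E X] [IsManifold 𝓘(ℂ, E) ω X] (k : ℕ) (F : Fin k → Dist E X)
    (hF : IsSplitting F)
    (h : ∀ i, ∃ s : TwoForm E X, Tames 1 s ∧ DVanishes s (F i) (⨆ j ≠ i, F j) ∧
      DVanishes s (⨆ j ≠ i, F j) (F i) ∧ Cocompact s (F i) (⨆ j ≠ i, F j))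
    (M : Type u) [TopologicalSpace M] [ChartedSpace E M] (π : M → X)
    (c : IsUnivCover π) (l : IsLift E π) : IsProduct π F :=
  tamed hF h c l

end Vale.Agent.Results.P278.A0Tamed
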